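import Vale.Agent.P043.Euclid.Defs

/-!
P043: a fundamental domain of `ℤ^d` in `ℝ^d` whose only tilings are the cosets of `ℤ^d`.

The unit cube loses one small cube `cav l` per axis and receives it again at `cav l + e l`. Two
translates at sup-distance at most `3/4` overlap, so the cube `cav l` of a translate can only be
filled by displaced small cubes, at most one of each size, and the volumes force the one of the
same size.
-/

noncomputable section

open MeasureTheory Set
open scoped ENNReal

namespace Vale.Agent.P043.Euclid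

variable {d : ℕ}

/-- The translate of `S` by `a`. -/
def sh (a : Fin d → ℝ) (S : Set (Fin d → ℝ)) : Set (Fin d → ℝ) := {x | x - a ∈ S}

/-- The largest small side. -/
def unit (d : ℕ) : ℝ := 1 / (16 * d)

/-- Corner of the small cube of axis `l`. -/
def corner (l : Fin d) : ℝ := 1 / 4 + 4 * (l : ℝ) * unit d

/-- Side of the small cube of axis `l`. -/
def width (l : Fin d) : ℝ := unit d * (1 / 2) ^ (l : ℕ)

/-- The small cube of axis `l`. -/
def cav (l : Fin d) : Set (Fin d → ℝ) :=
  univ.pi fun _ => Ico (corner l) (corner l + width l)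

/-- The unit vector of axis `l`. -/
def axis (l : Fin d) : Fin d → ℝ := Pi.single l 1

/-- The rigid domain. -/
def dom (d : ℕ) : Set (Fin d → ℝ) :=
  ((univ.pi fun _ => Ico (0 : ℝ) 1) \ ⋃ l, cav l) ∪ ⋃ l, sh (axis l) (cav l)

lemma unit_pos (l : Fin d) : 0 < unit d := by
  have : 0 < d := Fin.pos l
  unfold unit
  positivity

lemma width_pos (l : Fin d) : 0 < width l := mul_pos (unit_pos l) (by positivity)

lemma width_le (l : Fin d) : width l ≤ unit d :=
  mul_le_of_le_one_right (unit_pos l).le (pow_le_one₀ (by norm_num) (by norm_num))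

lemma unit_mul (l : Fin d) : unit d * d = 1 / 16 := by
  have : (d : ℝ) ≠ 0 := Nat.cast_ne_zero.2 (Fin.pos l).ne'
  unfold unit
  field_simp

lemma unit_le (l : Fin d) : unit d ≤ 1 / 16 := by
  rw [← unit_mul l]
  exact le_mul_of_one_le_right (unit_pos l).le (Nat.one_le_cast.2 (Fin.pos l))

lemma cav_bounds {l : Fin d} {y : Fin d → ℝ} (hy : y ∈ cav l) (i : Fin d) :
    1 / 4 ≤ y i ∧ y i < 3 / 4 ∧ corner l ≤ y i ∧ y i < corner l + unit d := by
  obtain ⟨h1, h2⟩ := hy i trivial
  have h0 : (0 : ℝ) ≤ 4 * (l : ℝ) * unit d := by have := unit_pos l; positivity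
  have hl : (l : ℝ) * unit d ≤ 1 / 16 := by
    rw [← unit_mul l, mul_comm (unit d)]
    exact mul_le_mul_of_nonneg_right (Nat.cast_le.2 l.2.le) (unit_pos l).le
  have := width_le l
  have := unit_le l
  have hc : corner l = 1 / 4 + 4 * (l : ℝ) * unit d := rfl
  refine ⟨?_, ?_, h1, ?_⟩ <;> linarith

lemma corner_near {l j : Fin d} {y z : Fin d → ℝ} (hy : y ∈ cav l) (hz : z ∈ cav j) {i : Fin d}
    (h : |y i - z i| < 2 * unit d) : j = l := by
  obtain ⟨-, -, a1, a2⟩ := cav_bounds hy i
  obtain ⟨-, -, b1, b2⟩ := cav_bounds hz i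
  rw [abs_lt] at h
  have hu := unit_pos l
  by_contra hne
  rcases lt_or_gt_of_ne (fun e => hne (Fin.ext e) : (j : ℕ) ≠ l) with hlt | hlt
  · have : ((j : ℕ) : ℝ) + 1 ≤ (l : ℕ) := by exact_mod_cast hlt
    unfold corner at a1 b2
    nlinarith
  · have : ((l : ℕ) : ℝ) + 1 ≤ (j : ℕ) := by exact_mod_cast hlt
    unfold corner at a2 b1
    nlinarith

lemma cav_disjoint {l j : Fin d} {y : Fin d → ℝ} (hl : y ∈ cav l) (hj : y ∈ cav j) : j = l :=
  corner_near (i := l) hl hj (by rw [sub_self, abs_zero]; linarith [unit_pos l])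

lemma cav_subset_cube {l : Fin d} {y : Fin d → ℝ} (hy : y ∈ cav l) :
    y ∈ univ.pi fun _ : Fin d => Ico (0 : ℝ) 1 := fun i _ => by
  obtain ⟨h1, h2, -, -⟩ := cav_bounds hy i
  constructor <;> linarith

lemma volume_sh (a : Fin d → ℝ) (S : Set (Fin d → ℝ)) : volume (sh a S) = volume S := by
  have : sh a S = (fun x => x + -a) ⁻¹' S := by ext x; simp [sh, sub_eq_add_neg]
  rw [this, measure_preimage_add_right]

lemma volume_cav (l : Fin d) : volume (cav l) = ENNReal.ofReal (width l ^ d) := by
  rw [cav, Real.volume_pi_Ico]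
  simp only [add_sub_cancel_left, Finset.prod_const, Finset.card_univ, Fintype.card_fin]
  rw [ENNReal.ofReal_pow (width_pos l).le]

/-- The small cubes take little volume. -/
lemma cavs_small (hd : 0 < d) : 2 * ∑ l : Fin d, width l ^ d < (1 / 4 : ℝ) ^ d := by
  have hu : 0 < unit d := unit_pos ⟨0, hd⟩
  have hsum : ∑ l : Fin d, width l ^ d ≤ (d : ℝ) * unit d ^ d := by
    refine (Finset.sum_le_sum fun l _ => pow_le_pow_left₀ (width_pos l).le (width_le l) d).trans ?_
    simp
  have h4 : (1 / 4 : ℝ) = 4 * d * unit d := by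
    rw [mul_assoc, mul_comm (d : ℝ), unit_mul ⟨0, hd⟩]
    norm_num
  have hlt : 2 * (d : ℝ) < (4 * d) ^ d := by
    have h1 : (1 : ℝ) ≤ d := Nat.one_le_cast.2 hd
    have := le_self_pow₀ (show (1 : ℝ) ≤ 4 * d by linarith) hd.ne'
    linarith
  rw [h4, mul_pow]
  nlinarith [pow_pos hu d, mul_lt_mul_of_pos_right hlt (pow_pos hu d)]

lemma sum_half {l : ℕ} : ∀ n : ℕ,
    (∑ k ∈ Finset.range n, if l < k then (1 / 2 : ℝ) ^ k else 0)
      + (if l < n then 2 * (1 / 2 : ℝ) ^ n else 0) ≤ (1 / 2) ^ l
  | 0 => by simp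
  | n + 1 => by
    have ih := sum_half (l := l) n
    rw [Finset.sum_range_succ]
    rcases lt_trichotomy l n with h | rfl | h
    · simp only [h, Nat.lt_succ_of_lt h, if_true] at ih ⊢
      rw [pow_succ]
      linarith
    · simp only [lt_irrefl, Nat.lt_succ_self, if_true, if_false, add_zero] at ih ⊢
      have h0 : (∑ k ∈ Finset.range l, if l < k then (1 / 2 : ℝ) ^ k else 0) = 0 :=
        Finset.sum_eq_zero fun k hk => by
          rw [if_neg (by rw [Finset.mem_range] at hk; omega)]
      rw [h0, pow_succ]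
      linarith
    · simp only [h.not_gt, show ¬ l < n + 1 by omega, if_false, add_zero] at ih ⊢
      exact ih

/-- The later small cubes together are smaller than one of them. -/
lemma later_small (l : Fin d) :
    ∑ k : Fin d, (if l < k then width k ^ d else 0) < width l ^ d := by
  obtain ⟨m, hm⟩ : ∃ m, d = m + 1 := ⟨d - 1, by have := l.2; omega⟩
  set u : ℝ := (1 / 2) ^ (l : ℕ)
  have hu : 0 < u := by positivity
  have hlt : ∑ k : Fin d, (if (l : ℕ) < k then (1 / 2 : ℝ) ^ (k : ℕ) else 0) < u := by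
    rw [Fin.sum_univ_eq_sum_range (fun k => if (l : ℕ) < k then (1 / 2 : ℝ) ^ k else 0) d]
    have h := sum_half (l := (l : ℕ)) d
    rw [if_pos l.2] at h
    have : (0 : ℝ) < 2 * (1 / 2 : ℝ) ^ d := by positivity
    linarith
  have hterm : ∀ k : Fin d, (if l < k then width k ^ d else 0)
      ≤ unit d ^ d * u ^ m * (if (l : ℕ) < k then (1 / 2 : ℝ) ^ (k : ℕ) else 0) := fun k => by
    by_cases h : l < k
    · rw [if_pos h, if_pos (Fin.lt_def.1 h), width, mul_pow]
      have hk : ((1 / 2 : ℝ) ^ (k : ℕ)) ^ m ≤ u ^ m := pow_le_pow_left₀ (by positivity)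
        (pow_le_pow_of_le_one (by norm_num) (by norm_num) (Fin.lt_def.1 h).le) m
      have e : ((1 / 2 : ℝ) ^ (k : ℕ)) ^ d = ((1 / 2 : ℝ) ^ (k : ℕ)) ^ m * (1 / 2) ^ (k : ℕ) := by
        rw [← pow_succ, ← hm]
      rw [e, mul_assoc (unit d ^ d) (u ^ m)]
      exact mul_le_mul_of_nonneg_left (mul_le_mul_of_nonneg_right hk (by positivity))
        (pow_nonneg (unit_pos l).le d)
    · rw [if_neg h, if_neg fun h' => h (Fin.lt_def.2 h'), mul_zero]
  refine lt_of_le_of_lt (Finset.sum_le_sum fun k _ => hterm k) ?_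
  rw [← Finset.mul_sum, width, mul_pow, show u ^ d = u ^ m * u by rw [← pow_succ, ← hm],
    ← mul_assoc (unit d ^ d)]
  exact mul_lt_mul_of_pos_left hlt (mul_pos (pow_pos (unit_pos l) d) (pow_pos hu m))

/-- Translates at distance at most `3/4` coincide. -/
lemma close_eq {A : Set (Fin d → ℝ)} (hT : TilesSpace (dom d) A) {a b : Fin d → ℝ} (ha : a ∈ A)
    (hb : b ∈ A) (h : ∀ i, |a i - b i| ≤ 3 / 4) : a = b := by
  by_contra hne
  have hd : 0 < d := by
    obtain ⟨i, -⟩ := Function.ne_iff.1 hne
    exact Fin.pos i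
  have hnull : volume (sh a (dom d) ∩ sh b (dom d)) = 0 := hT.2 ha hb hne
  set box : Set (Fin d → ℝ) := univ.pi fun i => Ico (max (a i) (b i)) (min (a i) (b i) + 1)
  have hsub : box ⊆ (sh a (dom d) ∩ sh b (dom d))
      ∪ ⋃ l, (sh a (cav l) ∪ sh b (cav l)) := by
    intro x hx
    by_cases hc : x ∈ ⋃ l, (sh a (cav l) ∪ sh b (cav l))
    · exact Or.inr hc
    simp only [mem_iUnion, not_exists, mem_union, not_or] at hc
    refine Or.inl ⟨Or.inl ⟨fun i _ => ?_, ?_⟩, Or.inl ⟨fun i _ => ?_, ?_⟩⟩
    · obtain ⟨h1, h2⟩ := hx i trivial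
      have := le_max_left (a i) (b i); have := min_le_left (a i) (b i)
      simp only [Pi.sub_apply]
      constructor <;> linarith
    · simp only [mem_iUnion, not_exists]
      exact fun l => (hc l).1
    · obtain ⟨h1, h2⟩ := hx i trivial
      have := le_max_right (a i) (b i); have := min_le_right (a i) (b i)
      simp only [Pi.sub_apply]
      constructor <;> linarith
    · simp only [mem_iUnion, not_exists]
      exact fun l => (hc l).2
  have hvol : ENNReal.ofReal ((1 / 4) ^ d) ≤ volume box := by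
    rw [Real.volume_pi_Ico]
    refine (le_of_eq ?_).trans (Finset.prod_le_prod' fun i _ => ENNReal.ofReal_le_ofReal
      (show (1 / 4 : ℝ) ≤ min (a i) (b i) + 1 - max (a i) (b i) from ?_))
    · rw [ENNReal.ofReal_pow (by norm_num : (0 : ℝ) ≤ 1 / 4)]
      simp
    · have h' := h i
      rw [abs_sub_comm, ← max_sub_min_eq_abs] at h'
      linarith
  have hle : volume box ≤ ENNReal.ofReal (2 * ∑ l : Fin d, width l ^ d) := by
    refine (measure_mono hsub).trans ((measure_union_le _ _).trans ?_)
    rw [hnull, zero_add]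
    refine (measure_iUnion_fintype_le _ _).trans ?_
    rw [Finset.mul_sum, ENNReal.ofReal_sum_of_nonneg fun l _ => by
      have := width_pos l; positivity]
    refine Finset.sum_le_sum fun l _ => (measure_union_le _ _).trans (le_of_eq ?_)
    rw [volume_sh, volume_sh, volume_cav, two_mul (width l ^ d),
      ENNReal.ofReal_add (pow_nonneg (width_pos l).le d) (pow_nonneg (width_pos l).le d)]
  have := ENNReal.ofReal_le_ofReal_iff (Finset.sum_nonneg (fun l _ => pow_nonneg (width_pos l).le d)
    |> mul_nonneg (by norm_num)) |>.1 (hvol.trans hle)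
  linarith [cavs_small hd]

/-- A cube translated inside itself up to a null set does not move. -/
lemma cav_fixed {l : Fin d} {t : Fin d → ℝ} (h : volume (sh t (cav l) \ cav l) = 0) : t = 0 := by
  by_contra ht
  obtain ⟨i, hi⟩ := Function.ne_iff.1 ht
  have hw := width_pos l
  have hcap : sh t (cav l) ∩ cav l ⊆ univ.pi fun j => Ico (corner l + max (t j) 0)
      (corner l + width l + min (t j) 0) := by
    rintro x ⟨h1, h2⟩ j -
    obtain ⟨a1, a2⟩ := h1 j trivial
    obtain ⟨b1, b2⟩ := h2 j trivial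
    simp only [Pi.sub_apply] at a1 a2
    constructor
    · rcases max_cases (t j) 0 with ⟨e, -⟩ | ⟨e, -⟩ <;> rw [e] <;> linarith
    · rcases min_cases (t j) 0 with ⟨e, -⟩ | ⟨e, -⟩ <;> rw [e] <;> linarith
  have hle : volume (sh t (cav l)) ≤ volume (sh t (cav l) ∩ cav l) + volume (sh t (cav l) \ cav l) :=
    measure_le_inter_add_sdiff _ _ _
  rw [h, add_zero] at hle
  have hge := hle.trans (measure_mono hcap)
  rw [volume_sh, volume_cav, Real.volume_pi_Ico, ENNReal.ofReal_pow hw.le,
    show ENNReal.ofReal (width l) ^ d = ∏ _j : Fin d, ENNReal.ofReal (width l) by simp] at hge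
  have hlt : ∏ j : Fin d, ENNReal.ofReal (corner l + width l + min (t j) 0 - (corner l + max (t j) 0))
      < ∏ _j : Fin d, ENNReal.ofReal (width l) := by
    rw [← Finset.mul_prod_erase _ _ (Finset.mem_univ i), ← Finset.mul_prod_erase _ _ (Finset.mem_univ i)]
    refine lt_of_le_of_lt (mul_le_mul' le_rfl (Finset.prod_le_prod' fun j _ =>
      ENNReal.ofReal_le_ofReal ?_)) (ENNReal.mul_lt_mul_left ?_ ?_ ?_)
    · have := le_max_right (t j) 0; have := min_le_right (t j) 0
      linarith
    · simp [hw]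
    · exact ENNReal.prod_ne_top fun j _ => ENNReal.ofReal_ne_top
    · rw [ENNReal.ofReal_lt_ofReal_iff hw]
      rcases lt_or_gt_of_ne hi with hs | hs <;> simp only [Pi.zero_apply] at hs
      · rw [min_eq_left hs.le, max_eq_right hs.le]; linarith
      · rw [min_eq_right hs.le, max_eq_left hs.le]; linarith
  exact absurd hge (not_le.2 hlt)

/-- A displaced small cube meeting a small cube of another translate lies in it. -/
lemma prot_inside {A : Set (Fin d → ℝ)} (hT : TilesSpace (dom d) A) {a b x : Fin d → ℝ}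
    (ha : a ∈ A) (hb : b ∈ A) {l k : Fin d} (hx : x - a ∈ cav l) (hx' : x - b - axis k ∈ cav k) :
    volume (sh (b + axis k) (cav k) \ sh a (cav l)) = 0 := by
  have hne : a ≠ b := by
    rintro rfl
    have h1 := (cav_bounds hx k).2.1
    have h2 := (cav_bounds hx' k).1
    simp [axis] at h1 h2
    linarith
  refine measure_mono_null ?_ (hT.2 ha hb hne)
  rintro y ⟨hy, hy'⟩
  have hy2 : y - b - axis k ∈ cav k := by simpa [sh, sub_sub] using hy
  refine ⟨Or.inl ⟨fun i _ => ?_, ?_⟩, Or.inr (mem_iUnion.2 ⟨k, hy2⟩)⟩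
  · obtain ⟨p1, p2, -, -⟩ := cav_bounds hx i
    obtain ⟨-, -, q1, q2⟩ := cav_bounds hx' i
    obtain ⟨-, -, r1, r2⟩ := cav_bounds hy2 i
    have := unit_le k
    simp only [Pi.sub_apply] at *
    constructor <;> linarith
  · simp only [mem_iUnion, not_exists]
    intro j hj
    refine hy' ?_
    suffices j = l from this ▸ hj
    obtain ⟨-, -, q1, q2⟩ := cav_bounds hx' l
    obtain ⟨-, -, r1, r2⟩ := cav_bounds hy2 l
    have := unit_pos k
    refine corner_near (i := l) hx hj ?_
    simp only [Pi.sub_apply] at *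
    rw [abs_lt]
    constructor <;> linarith

/-- The filler of a small cube. -/
lemma step_down {A : Set (Fin d → ℝ)} (hT : TilesSpace (dom d) A) {a : Fin d → ℝ} (ha : a ∈ A)
    (l : Fin d) : a - axis l ∈ A := by
  by_contra hno
  set U : Fin d → Set (Fin d → ℝ) :=
    fun k => {x | x - a ∈ cav l ∧ ∃ b ∈ A, x - b - axis k ∈ cav k}
  have hU : ∀ k, volume (U k) ≤ if l < k then ENNReal.ofReal (width k ^ d) else 0 := by
    intro k
    rcases (U k).eq_empty_or_nonempty with he | ⟨x, hx, b, hb, hxb⟩
    · simp [he]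
    have hnull := prot_inside hT ha hb hx hxb
    have hsub : U k ⊆ sh (b + axis k) (cav k) := by
      rintro y ⟨hy, b', hb', hyb⟩
      suffices b' = b by simpa [sh, sub_sub, this] using hyb
      refine close_eq hT hb' hb fun i => ?_
      obtain ⟨-, -, p1, p2⟩ := cav_bounds hx i
      obtain ⟨-, -, q1, q2⟩ := cav_bounds hy i
      obtain ⟨-, -, r1, r2⟩ := cav_bounds hxb i
      obtain ⟨-, -, s1, s2⟩ := cav_bounds hyb i
      have := unit_le k
      simp only [Pi.sub_apply] at *
      rw [abs_le]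
      constructor <;> linarith
    split_ifs with hlk
    · exact (measure_mono hsub).trans (le_of_eq (by rw [volume_sh, volume_cav]))
    exfalso
    have hvol : volume (sh (b + axis k) (cav k)) ≤ volume (sh a (cav l)) :=
      measure_mono_ae (ae_le_set.2 hnull)
    rw [volume_sh, volume_sh, volume_cav, volume_cav,
      ENNReal.ofReal_le_ofReal_iff (pow_nonneg (width_pos l).le d)] at hvol
    obtain hkl | rfl := lt_or_eq_of_le (not_lt.1 hlk)
    · refine absurd hvol (not_le.2 (pow_lt_pow_left₀ ?_ (width_pos l).le (Fin.pos l).ne'))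
      exact mul_lt_mul_of_pos_left (pow_lt_pow_right_of_lt_one₀ (by norm_num) (by norm_num) hkl)
        (unit_pos l)
    · have ht : b + axis k - a = 0 := by
        refine cav_fixed (l := k) ?_
        rw [← volume_sh a (sh (b + axis k - a) (cav k) \ cav k), ← hnull]
        congr 1
        ext y
        simp [sh, sub_sub]
      exact hno (by rwa [show a - axis k = b from by rw [sub_eq_zero] at ht; rw [← ht]; abel])
  have hcov : sh a (cav l) ⊆ {x | ¬ ∃ b ∈ A, x - b ∈ dom d} ∪ ⋃ k, U k := by
    intro x hx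
    by_cases hc : ∃ b ∈ A, x - b ∈ dom d
    · obtain ⟨b, hb, hq | hp⟩ := hc
      · exfalso
        have hab : a = b := close_eq hT ha hb fun i => by
          obtain ⟨p1, p2, -, -⟩ := cav_bounds (l := l) hx i
          obtain ⟨q1, q2⟩ := hq.1 i trivial
          simp only [Pi.sub_apply] at *
          rw [abs_le]
          constructor <;> linarith
        subst hab
        exact hq.2 (mem_iUnion.2 ⟨l, hx⟩)
      · obtain ⟨k, hk⟩ := mem_iUnion.1 hp
        exact Or.inr (mem_iUnion.2 ⟨k, hx, b, hb, hk⟩)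
    · exact Or.inl hc
  have h0 : volume {x : Fin d → ℝ | ¬ ∃ b ∈ A, x - b ∈ dom d} = 0 := ae_iff.1 hT.1
  have hle : volume (sh a (cav l)) ≤ ∑ k, if l < k then ENNReal.ofReal (width k ^ d) else 0 := by
    refine (measure_mono hcov).trans ((measure_union_le _ _).trans ?_)
    rw [h0, zero_add]
    exact (measure_iUnion_fintype_le _ _).trans (Finset.sum_le_sum fun k _ => hU k)
  rw [volume_sh, volume_cav] at hle
  have hconv : (∑ k, if l < k then ENNReal.ofReal (width k ^ d) else 0)
      = ENNReal.ofReal (∑ k : Fin d, if l < k then width k ^ d else 0) := by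
    rw [ENNReal.ofReal_sum_of_nonneg fun k _ => by
      split_ifs
      exacts [pow_nonneg (width_pos k).le d, le_rfl]]
    exact Finset.sum_congr rfl fun k _ => by split_ifs <;> simp
  rw [hconv, ENNReal.ofReal_le_ofReal_iff (Finset.sum_nonneg fun k _ => by
      split_ifs
      exacts [pow_nonneg (width_pos k).le d, le_rfl])] at hle
  exact absurd hle (not_le.2 (later_small l))

/-- Integer vectors in space. -/
def intVec : (Fin d → ℤ) →+ (Fin d → ℝ) where
  toFun n i := n i
  map_zero' := by funext i; simp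
  map_add' m n := by funext i; simp

@[simp] lemma intVec_apply (n : Fin d → ℤ) (i : Fin d) : intVec n i = n i := rfl

lemma intVec_injective : Function.Injective (intVec (d := d)) :=
  fun _ _ h => funext fun i => by simpa using congrFun h i

lemma axis_eq (l : Fin d) : axis l = intVec (Pi.single l 1) := by
  funext i
  rcases eq_or_ne i l with rfl | h
  · simp [axis]
  · simp [axis, h]

/-- The rigid domain is a fundamental domain. -/
lemma dom_partition (x : Fin d → ℝ) : ∃! n : Fin d → ℤ, x - intVec n ∈ dom d := by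
  set m : Fin d → ℤ := fun i => ⌊x i⌋
  have hm : x - intVec m ∈ univ.pi fun _ : Fin d => Ico (0 : ℝ) 1 := fun i _ => by
    simp only [Pi.sub_apply, intVec_apply, m]
    exact ⟨sub_nonneg.2 (Int.floor_le _), by linarith [Int.lt_floor_add_one (x i)]⟩
  have hfloor : ∀ n : Fin d → ℤ, x - intVec n ∈ (univ.pi fun _ : Fin d => Ico (0 : ℝ) 1) → n = m :=
    fun n hn => funext fun i => by
      obtain ⟨h1, h2⟩ := hn i trivial
      simp only [Pi.sub_apply, intVec_apply] at h1 h2
      exact (Int.floor_eq_iff.2 ⟨by linarith, by linarith⟩).symm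
  have hprot : ∀ (n : Fin d → ℤ) l, x - intVec n - axis l ∈ cav l →
      n + Pi.single l 1 = m ∧ x - intVec m ∈ cav l := by
    intro n l h
    rw [axis_eq, sub_sub, ← map_add] at h
    exact ⟨hfloor _ (cav_subset_cube h), hfloor _ (cav_subset_cube h) ▸ h⟩
  by_cases hc : ∃ l, x - intVec m ∈ cav l
  · obtain ⟨l, hl⟩ := hc
    refine ⟨m - Pi.single l 1, Or.inr (mem_iUnion.2 ⟨l, ?_⟩), ?_⟩
    · show x - intVec (m - Pi.single l 1) - axis l ∈ cav l
      rwa [axis_eq, sub_sub, ← map_add, sub_add_cancel]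
    · rintro n (hn | hn)
      · exact absurd (mem_iUnion.2 ⟨l, hfloor n hn.1 ▸ hl⟩) hn.2
      · obtain ⟨k, hk⟩ := mem_iUnion.1 hn
        obtain ⟨h1, h2⟩ := hprot n k hk
        rw [← h1, cav_disjoint hl h2, add_sub_cancel_right]
  · push Not at hc
    refine ⟨m, Or.inl ⟨hm, by simpa using hc⟩, ?_⟩
    rintro n (hn | hn)
    · exact hfloor n hn.1
    · obtain ⟨k, hk⟩ := mem_iUnion.1 hn
      exact absurd (hprot n k hk).2 (hc k)

lemma body_pos : 0 < volume ((univ.pi fun _ : Fin d => Ico (0 : ℝ) 1) \ ⋃ l, cav l) := by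
  rcases Nat.eq_zero_or_pos d with rfl | hd
  · rw [iUnion_of_empty, sdiff_empty, Real.volume_pi_Ico]
    simp
  have h1 : volume (univ.pi fun _ : Fin d => Ico (0 : ℝ) 1) = 1 := by simp [Real.volume_pi_Ico]
  have h2 : volume (⋃ l : Fin d, cav l) < 1 := by
    refine (measure_iUnion_fintype_le _ _).trans_lt ?_
    simp only [volume_cav]
    rw [← ENNReal.ofReal_sum_of_nonneg fun l _ => pow_nonneg (width_pos l).le d, ← ENNReal.ofReal_one,
      ENNReal.ofReal_lt_ofReal_iff one_pos]
    have := cavs_small hd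
    have := pow_le_one₀ (show (0 : ℝ) ≤ 1 / 4 by norm_num) (show (1 / 4 : ℝ) ≤ 1 by norm_num) (n := d)
    have : 0 ≤ ∑ l : Fin d, width l ^ d := Finset.sum_nonneg fun l _ => pow_nonneg (width_pos l).le d
    linarith
  refine lt_of_lt_of_le (tsub_pos_iff_lt.2 h2) ?_
  rw [← h1]
  exact le_measure_sdiff

/-- **Rigidity**: every tiling by `dom d` is a coset of the integer lattice. -/
theorem dom_rigid {A : Set (Fin d → ℝ)} (hT : TilesSpace (dom d) A) :
    ∃ v, ∀ x, x ∈ A ↔ ∃ n, x = v + intVec n := by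
  have hne : A.Nonempty := by
    by_contra h
    rw [not_nonempty_iff_eq_empty] at h
    have := hT.1
    simp [h, ae_iff] at this
    have hpos := body_pos (d := d)
    simp [this] at hpos
  obtain ⟨v, hv⟩ := hne
  have down : ∀ (a : Fin d → ℝ), a ∈ A → ∀ w : Fin d → ℕ, a - intVec (fun i => (w i : ℤ)) ∈ A := by
    suffices h : ∀ (N : ℕ) (w : Fin d → ℕ), ∑ i, w i = N → ∀ a ∈ A,
        a - intVec (fun i => (w i : ℤ)) ∈ A from fun a ha w => h _ w rfl a ha
    intro N
    induction N with
    | zero =>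
      intro w hw a ha
      rw [Finset.sum_eq_zero_iff] at hw
      have : (fun i => (w i : ℤ)) = (0 : Fin d → ℤ) := funext fun i => by simp [hw i]
      rwa [this, map_zero, sub_zero]
    | succ N ih =>
      intro w hw a ha
      obtain ⟨l, hl⟩ : ∃ l, 0 < w l := by
        by_contra h
        push Not at h
        rw [Finset.sum_eq_zero fun i _ => Nat.le_zero.1 (h i)] at hw
        omega
      set w' := Function.update w l (w l - 1)
      have hsum : ∑ i, w' i = N := by
        have h1 := Finset.sum_update_of_mem (Finset.mem_univ l) w (w l - 1)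
        have h2 := Finset.add_sum_erase _ w (Finset.mem_univ l)
        rw [← Finset.erase_eq] at h1
        show ∑ i, Function.update w l (w l - 1) i = N
        omega
      have := ih w' hsum _ (step_down hT ha l)
      rw [axis_eq, sub_sub, ← map_add] at this
      convert this using 3
      funext i
      rcases eq_or_ne i l with rfl | h
      · simp [w', Nat.cast_sub hl]
      · simp [w', h]
  have hmem : ∀ a ∈ A, ∃ n, a = v + intVec n := by
    intro a ha
    set n : Fin d → ℤ := fun i => ⌊a i - v i + 1 / 2⌋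
    have h1 := down a ha fun i => (n i).toNat
    have h2 := down v hv fun i => (-n i).toNat
    have he : (fun i => ((n i).toNat : ℤ)) = (fun i => ((-n i).toNat : ℤ)) + n := by
      funext i; simp only [Pi.add_apply]; omega
    refine ⟨n, ?_⟩
    have := close_eq hT h1 h2 fun i => by
      have p1 := Int.floor_le (a i - v i + 1 / 2)
      have p2 := Int.lt_floor_add_one (a i - v i + 1 / 2)
      rw [he, map_add]
      simp only [Pi.sub_apply, Pi.add_apply, intVec_apply, n] at *
      rw [abs_le]
      constructor <;> linarith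
    rw [he, map_add, ← sub_eq_zero] at this
    rw [← sub_eq_zero, ← this]
    abel
  refine ⟨v, fun x => ⟨hmem x, ?_⟩⟩
  rintro ⟨n, rfl⟩
  by_contra hout
  have h0 : volume {x : Fin d → ℝ | ¬ ∃ b ∈ A, x - b ∈ dom d} = 0 := ae_iff.1 hT.1
  have hpos := body_pos (d := d)
  rw [← volume_sh (v + intVec n)] at hpos
  refine hpos.ne' (measure_mono_null (fun y hy => ?_) h0)
  rintro ⟨b, hb, hyb⟩
  obtain ⟨m, rfl⟩ := hmem b hb
  obtain ⟨k, -, hk⟩ := dom_partition (y - v)
  have e1 : n = k := hk n (show _ ∈ dom d by rw [sub_sub]; exact Or.inl hy)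
  have e2 : m = k := hk m (show _ ∈ dom d by rwa [sub_sub])
  exact hout (by rw [e1, ← e2]; exact hb)

lemma measurable_sh {S : Set (Fin d → ℝ)} (hS : MeasurableSet S) (a : Fin d → ℝ) :
    MeasurableSet (sh a S) :=
  (measurable_id.sub_const a) hS

lemma measurable_dom : MeasurableSet (dom d) := by
  have hc : ∀ l : Fin d, MeasurableSet (cav l) := fun l =>
    MeasurableSet.univ_pi fun _ => measurableSet_Ico
  exact ((MeasurableSet.univ_pi fun _ => measurableSet_Ico).diff (MeasurableSet.iUnion hc)).union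
    (MeasurableSet.iUnion fun l => measurable_sh (hc l) _)

lemma dom_subset : dom d ⊆ Metric.closedBall 0 2 := by
  intro y hy
  rw [mem_closedBall_zero_iff, pi_norm_le_iff_of_nonneg (by norm_num)]
  intro i
  rw [Real.norm_eq_abs, abs_le]
  rcases hy with hy | hy
  · obtain ⟨h1, h2⟩ := hy.1 i trivial
    constructor <;> linarith
  · obtain ⟨l, hl⟩ := mem_iUnion.1 hy
    obtain ⟨h1, h2, -, -⟩ := cav_bounds (show y - axis l ∈ cav l from hl) i
    have h3 : 0 ≤ axis l i ∧ axis l i ≤ 1 := by
      rcases eq_or_ne i l with rfl | h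
      · simp [axis]
      · simp [axis, h]
    simp only [Pi.sub_apply] at h1 h2
    constructor <;> linarith [h3.1, h3.2]

end Vale.Agent.P043.Euclid
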