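import Mathlib

/-!
P043: translational tilings of Euclidean space up to null sets.
-/

open MeasureTheory

namespace Vale.Agent.P043.Euclid

variable {d : ℕ}

/-- The translates `Ω + a`, `a ∈ A`, cover `ℝ^d` up to a null set and pairwise intersect in null
sets. Here `x ∈ Ω + a` is written `x - a ∈ Ω`. -/
def TilesSpace (Ω A : Set (Fin d → ℝ)) : Prop :=
  (∀ᵐ x ∂(volume : Measure (Fin d → ℝ)), ∃ a ∈ A, x - a ∈ Ω) ∧
    A.Pairwise fun a b => volume ({x | x - a ∈ Ω} ∩ {x | x - b ∈ Ω}) = 0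

/-- `A` is invariant under the translations of a lattice of rank `d`. -/
def IsPeriodicSet (A : Set (Fin d → ℝ)) : Prop :=
  ∃ v : Fin d → Fin d → ℝ, LinearIndependent ℝ v ∧ ∀ i, ∀ a, a + v i ∈ A ↔ a ∈ A

/-- A bounded measurable set of positive volume tiles, but none of its tilings is periodic. -/
def HasAperiodicTile (d : ℕ) : Prop :=
  ∃ Ω : Set (Fin d → ℝ), MeasurableSet Ω ∧ Bornology.IsBounded Ω ∧ 0 < volume Ω ∧
    (∃ A, TilesSpace Ω A) ∧ ∀ A, TilesSpace Ω A → ¬ IsPeriodicSet A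

end Vale.Agent.P043.Euclid
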